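import Vale.Agent.P281.J
import Mathlib.AlgebraicTopology.FundamentalGroupoid.SimplyConnected

/-! P284 (helper540): line bundles, their Iitaka dimension, morphisms to sheaves of holomorphic
`p`-forms, special manifolds. -/

namespace Vale.Agent.P284.H540

open scoped Manifold ContDiff Topology
open Set Filter
open Vale.Agent.P281.J (HolAt dif)

/-- The group `G` has an abelian subgroup of finite index. -/
def VirtuallyAbelian (G : Type*) [Group G] : Prop :=
  ∃ A : Subgroup G, A.FiniteIndex ∧ ∀ a ∈ A, ∀ b ∈ A, a * b = b * a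

section
variable (E : Type) [NormedAddCommGroup E] [NormedSpace ℂ E]
variable (X : Type) [TopologicalSpace X] [ChartedSpace E X]

/-- A holomorphic line bundle on `X`, given by an open covering `U a` with local frames `e_a` over
`U a` and the transition functions `g a b` with `e_b = g a b * e_a` on `U a ∩ U b` (every
holomorphic line bundle has such data). -/
structure LineBundle where
  ι : Type
  U : ι → Set X
  isOpen : ∀ a, IsOpen (U a)
  cover : ∀ x, ∃ a, x ∈ U a
  g : ι → ι → X → ℂ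
  hol : ∀ a b, ∀ x ∈ U a ∩ U b, HolAt E (g a b) x
  ne_zero : ∀ a b, ∀ x ∈ U a ∩ U b, g a b x ≠ 0
  cocycle : ∀ a b c, ∀ x ∈ U a ∩ U b ∩ U c, g a b x * g b c x = g a c x

end

section
variable {E : Type} [NormedAddCommGroup E] [NormedSpace ℂ E]
variable {X : Type} [TopologicalSpace X] [ChartedSpace E X]

/-- Holomorphic sections of `L ^ m`: `σ a` is the coefficient with respect to the frame
`e_a ^ m` over `U a`. -/
def IsSec (L : LineBundle E X) (m : ℕ) (σ : L.ι → X → ℂ) : Prop :=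
  (∀ a, ∀ x ∈ L.U a, HolAt E (σ a) x) ∧
    ∀ a b, ∀ x ∈ L.U a ∩ L.U b, σ a x = L.g a b x ^ m * σ b x

/-- For some `m ≥ 1` the bundle `L ^ m` has sections `σ_0, ..., σ_j` whose ratios
`σ_1 / σ_0, ..., σ_j / σ_0` have linearly independent differentials at some point: the image of the
meromorphic map given by `|L ^ m|` has dimension at least `j`. -/
def IitakaGE (L : LineBundle E X) (j : ℕ) : Prop :=
  ∃ m : ℕ, 1 ≤ m ∧ ∃ σ : Fin (j + 1) → L.ι → X → ℂ, (∀ b, IsSec L m (σ b)) ∧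
    ∃ a, ∃ x ∈ L.U a, σ 0 a x ≠ 0 ∧
      LinearIndependent ℂ fun b : Fin j => dif E (fun y => σ b.succ a y / σ 0 a y) x

/-- The Iitaka dimension `κ(X, L)` (`⊥` is `-∞`). -/
noncomputable def iitaka (L : LineBundle E X) : WithBot ℕ∞ :=
  ⨆ (j : ℕ) (_ : IitakaGE L j), ((j : ℕ∞) : WithBot ℕ∞)

/-- The differential at `x` of the chart at `x₀` (the tangent space at `x` is `E`). -/
noncomputable def dchart (x₀ x : X) : E →L[ℂ] E :=
  mfderiv 𝓘(ℂ, E) 𝓘(ℂ, E) (chartAt E x₀) x

/-- Sheaf morphisms `L → Ω^p`: `η a` is the image of the frame `e_a`, a holomorphic `p`-form on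
`U a`; the value `η a x` is an alternating form on the tangent space of `X` at `x`, which is
`E`, and near `x₀` the form is `A x` in the chart at `x₀`, with `A` holomorphic. -/
def IsMorphism (L : LineBundle E X) (p : ℕ) (η : L.ι → X → E [⋀^Fin p]→ₗ[ℂ] ℂ) : Prop :=
  (∀ a, ∀ x₀ ∈ L.U a, ∃ A : X → E [⋀^Fin p]→ₗ[ℂ] ℂ, (∀ v, HolAt E (fun x => A x v) x₀) ∧
    ∀ᶠ x in 𝓝 x₀, ∀ v : Fin p → E, η a x v = A x fun i => dchart x₀ x (v i)) ∧
    ∀ a b, ∀ x ∈ L.U a ∩ L.U b, η b x = L.g a b x • η a x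

variable (E X) in
/-- `X` is special: for no `1 ≤ p ≤ dim X` is there a line bundle `L` with `κ(X, L) = p` and a
nonzero sheaf morphism `L → Ω^p`. -/
def IsSpecial : Prop :=
  ∀ p : ℕ, 1 ≤ p → p ≤ Module.finrank ℂ E → ∀ L : LineBundle E X,
    iitaka L = ((p : ℕ∞) : WithBot ℕ∞) →
    ∀ η : L.ι → X → E [⋀^Fin p]→ₗ[ℂ] ℂ, IsMorphism L p η → ∀ a, ∀ x ∈ L.U a, η a x = 0

end

end Vale.Agent.P284.H540
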