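import Vale.Agent.P284.H540.Defs
import Vale.Agent.P281.H540.Camp

/-! P284 (helper540): manifolds of general type are not special. -/

namespace Vale.Agent.P284.H540

open scoped Manifold ContDiff Topology
open Set Filter Vale.Agent.P272.K Vale.Agent.P281 Vale.Agent.P281.H76

section
variable {n : ℕ} {X : Type} [TopologicalSpace X] [ChartedSpace (Cm n) X]
  [IsManifold 𝓘(ℂ, Cm n) ω X]

/-- the Jacobian of the chart at `a` -/
noncomputable def J (n : ℕ) {X : Type} [TopologicalSpace X] [ChartedSpace (Cm n) X] (a x : X) : ℂ :=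
  jac (Cm n) (chartAt (Cm n) a : X → Cm n) x

theorem J_ne {a x : X} (h : x ∈ (chartAt (Cm n) a).source) : J n a x ≠ 0 :=
  jac_chart_ne_zero h

/-- the ratio of two Jacobians is holomorphic -/
theorem J_ratio {a b x : X} (ha : x ∈ (chartAt (Cm n) a).source)
    (hb : x ∈ (chartAt (Cm n) b).source) :
    HolV (Cm n) (fun y => J n b y / J n a y) x := by
  obtain ⟨R, hR, hRe⟩ := jac_local (E := Cm n) (HolV.chart ha)
  obtain ⟨R', hR', hRe'⟩ := jac_local (E := Cm n) (HolV.chart hb)
  have hne : R x ≠ 0 := by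
    intro h0
    have := hRe.self_of_nhds
    rw [h0, zero_mul] at this
    exact J_ne ha this
  have h1 : HolV (Cm n) (fun y => (R y)⁻¹) x :=
    HolV.comp_contDiff (G := fun t : ℂ => t⁻¹) (contDiffAt_inv ℂ hne) hR
  refine (hR'.mul h1).congr ?_
  filter_upwards [hRe, hRe', jac_chart_ev (E := Cm n) x] with y h2 h3 h4
  change jac (Cm n) (chartAt (Cm n) b : X → Cm n) y / jac (Cm n) (chartAt (Cm n) a : X → Cm n) y = _
  rw [h2, h3, mul_div_mul_right _ _ h4, div_eq_mul_inv]

variable (n X) in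
/-- the canonical bundle -/
noncomputable def canon : LineBundle (Cm n) X where
  ι := X
  U := fun a => (chartAt (Cm n) a).source
  isOpen := fun a => (chartAt (Cm n) a).open_source
  cover := fun x => ⟨x, mem_chart_source _ x⟩
  g := fun a b x => J n b x / J n a x
  hol := fun a b x hx => J_ratio hx.1 hx.2
  ne_zero := fun a b x hx => div_ne_zero (J_ne hx.2) (J_ne hx.1)
  cocycle := fun a b c x hx => by
    have h1 := J_ne hx.1.1
    have h2 := J_ne hx.1.2
    field_simp

/-- the identity `K_X → Ω^n`. -/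
theorem canon_morphism : IsMorphism (canon n X) n
    (fun (a : X) (x : X) => J n a x • (Pi.basisFun ℂ (Fin n)).det) := by
  refine ⟨fun (a : X) (x₀ : X) (hx₀ : x₀ ∈ (chartAt (Cm n) a).source) =>
    ⟨fun x => (J n a x / J n x₀ x) • (Pi.basisFun ℂ (Fin n)).det,
    fun v => ?_, ?_⟩, fun (a : X) (b : X) (x : X)
      (hx : x ∈ (chartAt (Cm n) a).source ∩ (chartAt (Cm n) b).source) => ?_⟩
  · have h1 : HolV (Cm n) (fun y => J n a y / J n x₀ y) x₀ :=
      J_ratio (mem_chart_source (Cm n) x₀) hx₀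
    have h2 : HolV (Cm n) (fun _ : X => (Pi.basisFun ℂ (Fin n)).det v) x₀ := HolV.const _ _
    exact h1.mul h2
  · filter_upwards [(chartAt (Cm n) x₀).open_source.mem_nhds (mem_chart_source (Cm n) x₀)]
      with x hx v
    have h3 := Module.Basis.det_comp (Pi.basisFun ℂ (Fin n))
      ((dV (Cm n) (chartAt (Cm n) x₀ : X → Cm n) x : Cm n →L[ℂ] Cm n) : Cm n →ₗ[ℂ] Cm n) v
    have h4 : LinearMap.det ((dV (Cm n) (chartAt (Cm n) x₀ : X → Cm n) x : Cm n →L[ℂ] Cm n) :
        Cm n →ₗ[ℂ] Cm n) = J n x₀ x := rfl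
    change J n a x * (Pi.basisFun ℂ (Fin n)).det v = J n a x / J n x₀ x *
      (Pi.basisFun ℂ (Fin n)).det (fun i => (dV (Cm n) (chartAt (Cm n) x₀ : X → Cm n) x) (v i))
    have h5 : (Pi.basisFun ℂ (Fin n)).det
        (fun i => (dV (Cm n) (chartAt (Cm n) x₀ : X → Cm n) x) (v i)) =
        J n x₀ x * (Pi.basisFun ℂ (Fin n)).det v := by rw [← h4, ← h3]; rfl
    rw [h5, ← mul_assoc, div_mul_cancel₀ _ (J_ne hx)]
  · change J n b x • (Pi.basisFun ℂ (Fin n)).det =
      (J n b x / J n a x) • (J n a x • (Pi.basisFun ℂ (Fin n)).det)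
    rw [smul_smul, div_mul_cancel₀ _ (J_ne hx.1)]

/-- `κ(X, L) ≤ n` -/
theorem iitaka_le (L : LineBundle (Cm n) X) : iitaka L ≤ ((n : ℕ∞) : WithBot ℕ∞) := by
  unfold iitaka
  refine iSup₂_le fun j hj => ?_
  obtain ⟨m, -, σ, -, a, x, -, -, hli⟩ := hj
  have h1 := hli.map' (ContinuousLinearMap.coeLM ℂ : (Cm n →L[ℂ] ℂ) →ₗ[ℂ] (Cm n →ₗ[ℂ] ℂ))
    (LinearMap.ker_eq_bot.2 ContinuousLinearMap.coe_injective)
  have h2 := h1.fintype_card_le_finrank
  rw [Fintype.card_fin] at h2
  have h3 : j ≤ n := h2.trans (by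
    rw [show Module.finrank ℂ (Cm n →ₗ[ℂ] ℂ) = Module.finrank ℂ (Cm n) from
      Subspace.dual_finrank_eq, Module.finrank_fin_fun])
  exact_mod_cast h3

/-- `κ(X, K_X) ≥ j` in the sense of P281 gives it in the present sense. -/
theorem iitaka_canon {ι : Type} {eqn : ι → X → (X → ℂ) → Prop} {j : ℕ}
    (h : KodGE (Cm n) eqn (fun _ => 0) j) : IitakaGE (canon n X) j := by
  obtain ⟨m, k, s, z, hm, hk, hs, -, hs0, hli⟩ := h
  have hk0 : ∀ i, k i = 0 := fun i => by
    have := hk i
    rw [mul_zero] at this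
    exact_mod_cast this
  refine ⟨m, hm, fun b (a : X) x => s b x / J n a x ^ m, fun b =>
    ⟨fun (a : X) (x₀ : X) (hx₀ : x₀ ∈ (chartAt (Cm n) a).source) => ?_, fun (a : X) (b' : X) (x : X)
      (hx : x ∈ (chartAt (Cm n) a).source ∩ (chartAt (Cm n) b').source) => ?_⟩, z, z,
    mem_chart_source (Cm n) z, div_ne_zero hs0 (pow_ne_zero _ (J_ne (mem_chart_source _ z))), ?_⟩
  · obtain ⟨T, g, A, -, -, hA, hev⟩ := hs b x₀
    have h1 : HolV (Cm n) (fun y => J n x₀ y / J n a y) x₀ :=
      J_ratio hx₀ (mem_chart_source (Cm n) x₀)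
    have h2 : HolV (Cm n) (fun y => (J n x₀ y / J n a y) ^ m) x₀ :=
      HolV.comp_contDiff (G := fun t : ℂ => t ^ m) (contDiff_id.pow m).contDiffAt h1
    have h3 : HolV (Cm n) A x₀ := hA
    refine (h3.mul h2).congr ?_
    filter_upwards [hev] with y hy
    have h4 : ∏ i ∈ T, g i y ^ k i = 1 := Finset.prod_eq_one fun i _ => by rw [hk0 i, pow_zero]
    rw [h4] at hy
    have h5 := hy one_ne_zero
    rw [mul_one] at h5
    change s b y / J n a y ^ m = _
    rw [h5, div_pow, mul_div_assoc]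
    rfl
  · change s b x / J n a x ^ m = (J n b' x / J n a x) ^ m * (s b x / J n b' x ^ m)
    have h1 := pow_ne_zero m (J_ne hx.1)
    have h2 := pow_ne_zero m (J_ne hx.2)
    rw [div_pow, div_mul_div_comm, mul_comm (J n b' x ^ m) (s b x),
      mul_div_mul_right _ _ h2]
  · have heq : ∀ b : Fin j, (fun y => (s b.succ y / J n z y ^ m) / (s 0 y / J n z y ^ m)) =ᶠ[𝓝 z]
        fun y => s b.succ y / s 0 y := by
      intro b
      filter_upwards [(chartAt (Cm n) z).open_source.mem_nhds (mem_chart_source (Cm n) z)]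
        with y hy
      exact div_div_div_cancel_right₀ (pow_ne_zero _ (J_ne hy)) _ _
    have h6 : (fun b : Fin j => dif (Cm n)
        (fun y => (s b.succ y / J n z y ^ m) / (s 0 y / J n z y ^ m)) z) =
        fun b : Fin j => dif (Cm n) (fun y => s b.succ y / s 0 y) z := by
      funext b
      unfold dif
      rw [(heq b).mfderiv_eq]
    rw [← h6] at hli
    exact hli

theorem not_special (hn : 1 ≤ n) {ι : Type} {eqn : ι → X → (X → ℂ) → Prop}
    (h : KodGE (Cm n) eqn (fun _ => 0) n) : ¬ IsSpecial (Cm n) X := by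
  intro hsp
  have h1 : iitaka (canon n X) = ((n : ℕ∞) : WithBot ℕ∞) := by
    refine le_antisymm (iitaka_le _) ?_
    exact le_iSup₂_of_le (f := fun (j : ℕ) (_ : IitakaGE (canon n X) j) =>
      ((j : ℕ∞) : WithBot ℕ∞)) n (iitaka_canon h) le_rfl
  obtain ⟨m, k, s, z, -⟩ := h
  have h2 := hsp n hn (by rw [Module.finrank_fin_fun]) (canon n X) h1 _ canon_morphism z z (mem_chart_source (Cm n) z)
  have h3 := congrArg (fun A : Cm n [⋀^Fin n]→ₗ[ℂ] ℂ => A (Pi.basisFun ℂ (Fin n))) h2
  simp only [AlternatingMap.smul_apply, AlternatingMap.zero_apply, Module.Basis.det_self,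
    smul_eq_mul, mul_one] at h3
  exact J_ne (mem_chart_source (Cm n) z) h3

end

/-- a connected manifold of dimension `0` is a point. -/
theorem subsingleton_of_zero {X : Type} [TopologicalSpace X] [ConnectedSpace X]
    [ChartedSpace (Cm 0) X] : Subsingleton X := by
  have : DiscreteTopology (Cm 0) := Subsingleton.discreteTopology
  have : DiscreteTopology X := ChartedSpace.discreteTopology (Cm 0) X
  exact PreconnectedSpace.trivial_of_discrete

theorem virtuallyAbelian_of_subsingleton {X : Type} [TopologicalSpace X] [Subsingleton X] (x : X) :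
    VirtuallyAbelian (FundamentalGroup X x) := by
  letI : Unique X := uniqueOfSubsingleton x
  have : ContractibleSpace X := inferInstance
  have : Subsingleton (FundamentalGroup X x) := inferInstance
  refine ⟨⊤, ?_, fun a _ b _ => Subsingleton.elim _ _⟩
  infer_instance

end Vale.Agent.P284.H540
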